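import Vale.Agent.P283R.Em.Ms
import Vale.Agent.P283R.Tp.Eig
import Vale.Agent.P283R.Tp.Quo
import Vale.Agent.P283R.Tp.Quo2

/-!
# P283R, block EM: the minimal equivariant embedding at a closed point
-/

set_option linter.all false

open Set

noncomputable section

namespace Vale.Agent.P283R.Em

open Vale.Agent.P287D Vale.Agent.P297Z

section

variable {R E F : Type} [CommRing R] [Algebra ℂ R] [Field E] [Algebra ℂ E] [Field F] [Algebra ℂ F]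

/-- the image of `R[1 / s]` -/
def aw (ρ : R →ₐ[ℂ] E) (s : R) : Subalgebra ℂ E where
  carrier := {x | ∃ a, ∃ k : ℕ, x * ρ s ^ k = ρ a}
  mul_mem' := by
    rintro x y ⟨a, k, h⟩ ⟨b, l, h'⟩
    exact ⟨a * b, k + l, by rw [map_mul, ← h, ← h']; ring⟩
  add_mem' := by
    rintro x y ⟨a, k, h⟩ ⟨b, l, h'⟩
    exact ⟨a * s ^ l + b * s ^ k, k + l, by
      rw [map_add, map_mul, map_mul, map_pow, map_pow, ← h, ← h']; ring⟩
  algebraMap_mem' z := ⟨algebraMap ℂ R z, 0, by simp⟩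

/-- the map to the image -/
def toAw (ρ : R →ₐ[ℂ] E) (s : R) : R →ₐ[ℂ] aw ρ s := ρ.codRestrict _ fun a => ⟨a, 0, by simp⟩

theorem inv_aw {ρ : R →ₐ[ℂ] E} {s : R} (h : ρ s ≠ 0) : (ρ s)⁻¹ ∈ aw ρ s :=
  ⟨1, 1, by simp [h]⟩

theorem unit_aw {ρ : R →ₐ[ℂ] E} {s : R} (h : ρ s ≠ 0) : IsUnit (toAw ρ s s) :=
  .of_mul_eq_one ⟨_, inv_aw h⟩ (Subtype.ext (mul_inv_cancel₀ h))

theorem sur_aw {ρ : R →ₐ[ℂ] E} {s : R} (t : aw ρ s) :
    ∃ a, ∃ k : ℕ, t * toAw ρ s s ^ k = toAw ρ s a :=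
  let ⟨a, k, h⟩ := t.2; ⟨a, k, Subtype.ext h⟩

theorem fg_aw [Algebra.FiniteType ℂ R] {ρ : R →ₐ[ℂ] E} {s : R} (h : ρ s ≠ 0) : (aw ρ s).FG := by
  classical
  obtain ⟨t, ht⟩ := (Algebra.FiniteType.out : (⊤ : Subalgebra ℂ R).FG)
  refine ⟨insert (ρ s)⁻¹ (t.image ρ), le_antisymm (Algebra.adjoin_le ?_) ?_⟩
  · rw [Finset.coe_insert, Finset.coe_image, insert_subset_iff]
    exact ⟨inv_aw h, by rintro _ ⟨a, -, rfl⟩; exact (toAw ρ s a).2⟩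
  · rintro x ⟨a, k, e⟩
    rw [(eq_mul_inv_iff_mul_eq₀ (pow_ne_zero k h)).2 e, ← inv_pow]
    refine mul_mem ?_ (pow_mem (Algebra.subset_adjoin (by simp)) _)
    have : ρ a ∈ Algebra.adjoin ℂ (ρ '' t) := by
      rw [Algebra.adjoin_image, ht]
      exact ⟨a, trivial, rfl⟩
    exact Algebra.adjoin_mono (by simp) this

/-- the induced map -/
theorem exists_map {ρ : R →ₐ[ℂ] E} {s : R} (π : R →ₐ[ℂ] F) (h : π s ≠ 0)
    (le : ∀ a, ρ a = 0 → π a = 0) : ∃ φ : aw ρ s →ₐ[ℂ] F,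
      ∀ (x : aw ρ s) (a : R) (k : ℕ), x * ρ s ^ k = ρ a → φ x * π s ^ k = π a := by
  choose b l hb using fun x : aw ρ s => x.2
  have sp : ∀ (x : aw ρ s) (a : R) (k : ℕ), x * ρ s ^ k = ρ a →
      π (b x) / π s ^ l x * π s ^ k = π a := fun x a k e => by
    have := le (b x * s ^ k - a * s ^ l x) (by
      rw [map_sub, map_mul, map_mul, map_pow, map_pow, ← hb, ← e]; ring)
    rw [map_sub, map_mul, map_mul, map_pow, map_pow, sub_eq_zero] at this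
    rw [div_mul_eq_mul_div, this, mul_div_cancel_right₀ _ (pow_ne_zero _ h)]
  have z : ∀ (x : aw ρ s) (a : R), (x : E) = ρ a → π (b x) / π s ^ l x = π a := fun x a e => by
    simpa using sp x a 0 (by simpa using e)
  refine ⟨{
    toFun := fun x => π (b x) / π s ^ l x
    map_one' := (z 1 1 (by simp)).trans (map_one π)
    map_zero' := (z 0 0 (by simp)).trans (map_zero π)
    commutes' := fun c => (z _ (algebraMap ℂ R c) (by simp)).trans (π.commutes c)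
    map_mul' := fun x y => mul_right_cancel₀ (pow_ne_zero (l x + l y) h) ?_
    map_add' := fun x y => mul_right_cancel₀ (pow_ne_zero (l x + l y) h) ?_ }, sp⟩
  · rw [sp (x * y) (b x * b y) (l x + l y) (by
      rw [map_mul, ← hb, ← hb, MulMemClass.coe_mul]; ring), map_mul]
    field_simp
    ring
  · rw [sp (x + y) (b x * s ^ l y + b y * s ^ l x) (l x + l y) (by
      rw [map_add, map_mul, map_mul, map_pow, map_pow, ← hb, ← hb, AddMemClass.coe_add]; ring),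
      map_add, map_mul, map_mul, map_pow, map_pow]
    field_simp
    ring

/-- the function field of a subvariety -/
theorem exists_field [IsDomain R] [Algebra.FiniteType ℂ R] (P : Ideal R) [P.IsPrime] {n c : ℕ}
    (ht : P.height = c) (d : Algebra.trdeg ℂ R = (n + c : ℕ)) :
    ∃ (E : Type) (_ : Field E) (_ : Algebra ℂ E) (ρ : R →ₐ[ℂ] E), FF E n ∧
      (∀ a, ρ a = 0 ↔ a ∈ P) ∧ (∀ x, ∃ a b, x = ρ a / ρ b) ∧ ∀ g : R ≃ₐ[ℂ] R,
        (∀ a ∈ P, g a ∈ P) → (∀ a ∈ P, g.symm a ∈ P) → ∃ τ : E ≃ₐ[ℂ] E, ∀ a, τ (ρ a) = ρ (g a) := by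
  refine ⟨FractionRing (R ⧸ P), inferInstance, inferInstance,
    (IsScalarTower.toAlgHom ℂ (R ⧸ P) _).comp (Ideal.Quotient.mkₐ ℂ P), ?_, fun a =>
    (map_eq_zero_iff _ (IsFractionRing.injective (R ⧸ P) _)).trans Ideal.Quotient.eq_zero_iff_mem,
    fun x => ?_, fun g h1 h2 => ⟨Qw.up (Ideal.quotientEquivAlg P P g (le_antisymm (fun a ha => ?_)
      (Ideal.map_le_iff_le_comap.2 h1))), fun a => Qw.up_map _ _⟩⟩
  · have a := Dim.height_add_td (k := ℂ) P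
    rw [Dim.trdeg_eq_td, Nat.cast_inj] at d
    rw [ht, d] at a
    have : Algebra.EssFiniteType (R ⧸ P) (FractionRing (R ⧸ P)) :=
      .of_isLocalization _ (nonZeroDivisors _)
    have : Algebra.EssFiniteType ℂ (FractionRing (R ⧸ P)) := .comp ℂ (R ⧸ P) _
    refine Gm.ff_of_ess ?_
    rw [Qw.trd (S := R ⧸ P), Dim.trdeg_eq_td, Nat.cast_inj]
    have b : c + Dim.td ℂ (R ⧸ P) = n + c := by exact_mod_cast a
    omega
  · obtain ⟨a, b, -, rfl⟩ := IsFractionRing.div_surjective (A := R ⧸ P) x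
    obtain ⟨a, rfl⟩ := Ideal.Quotient.mk_surjective a
    obtain ⟨b, rfl⟩ := Ideal.Quotient.mk_surjective b
    exact ⟨a, b, rfl⟩
  · have := Ideal.mem_map_of_mem (g : R →+* R) (h2 a ha)
    rwa [RingHom.coe_coe, AlgEquiv.apply_symm_apply] at this

theorem td_aff {N : ℕ} {S : Subalgebra ℂ F} (h : Aff N S) : Algebra.trdeg ℂ S = N := by
  have := Eg.frac h
  rw [← Qw.trd (S := S) F, h.ff.trdeg]

end

variable {F F' : Type} [Field F] [Algebra ℂ F] [Field F'] [Algebra ℂ F'] {N c : ℕ}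
  {G : Subgroup (F ≃ₐ[ℂ] F)} {S : Subalgebra ℂ F} {G' : Subgroup (F' ≃ₐ[ℂ] F')}
  {S' : Subalgebra ℂ F'} {π : S' →ₐ[ℂ] S} {f : Fin c → S'}

theorem ht_ker (hl : Lci N G S G' S' π f) (hS : Aff N S) : (RingHom.ker π).height = c := by
  have := Eg.ft hl.aff
  have := Eg.ft hS
  have := RingHom.ker_isPrime π
  have a := Dim.height_add_td (k := ℂ) (RingHom.ker π)
  have b : Algebra.trdeg ℂ (S' ⧸ RingHom.ker π) = N :=
    (Ideal.quotientKerAlgEquivOfSurjective hl.sur).trdeg_eq.trans (td_aff hS)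
  have d := td_aff hl.aff
  rw [Dim.trdeg_eq_td, Nat.cast_inj] at b d
  rw [b, d, Nat.cast_add, add_comm (N : ℕ∞)] at a
  exact WithTop.add_right_cancel (ENat.natCast_ne_top N) a

/-- **RE** -/
theorem re (hl : Lci N G S G' S' π f) (hS : Aff N S) (q : Ideal S) (hq : q.IsMaximal) :
    ∃ s : S, s ∉ q ∧ (∀ σ ∈ G, Inr S q σ → σ s = s) ∧
      ∀ (S₁ : Subalgebra ℂ F) (G₁ : Subgroup (F ≃ₐ[ℂ] F)),
        (∀ x, x ∈ S₁ ↔ ∃ k : ℕ, x * s ^ k ∈ S) → (∀ σ, σ ∈ G₁ ↔ σ ∈ G ∧ Inr S q σ) →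
        ∃ (c₂ : ℕ) (F₂ : Type) (_ : Field F₂) (_ : Algebra ℂ F₂) (G₂ : Subgroup (F₂ ≃ₐ[ℂ] F₂))
          (S₂ : Subalgebra ℂ F₂) (π₂ : S₂ →ₐ[ℂ] S₁) (f₂ : Fin c₂ → S₂),
          Lci N G₁ S₁ G₂ S₂ π₂ f₂ ∧ ∀ q₁ : Ideal S₁,
            (∀ (a : S) (b : S₁), a ∈ q → (b : F) = a → b ∈ q₁) → ∀ i, f₂ i ∈ q₁.comap π₂ ^ 2 := by
  classical
  have := hl.sm
  have := hl.fin
  have := Eg.ft hl.aff
  have := RingHom.ker_isPrime π
  have hm : (q.comap π).IsMaximal := Ideal.comap_isMaximal_of_surjective π hl.sur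
  let α := (Eg.resG hl.stab).comp (Eg.ine hl.stab (q.comap π)).subtype
  have dn : ∀ g, ∃ σ ∈ G, ∀ a, σ (π a) = π (α g a) := fun g =>
    (hl.down _ g.1.2).imp fun σ h => ⟨h.1, fun a => h.2 a _ rfl⟩
  have up : ∀ σ ∈ G, Inr S q σ → ∃ g, ∀ a, σ (π a) = π (α g a) := fun σ hσ i => by
    obtain ⟨τ, h1, h2⟩ := hl.up σ hσ
    refine ⟨⟨⟨τ, h1⟩, fun a => ?_⟩, fun a => h2 a _ rfl⟩
    obtain ⟨b, b1, b2⟩ := i (π a)
    rw [h2 a (Eg.resG hl.stab ⟨τ, h1⟩ a) rfl] at b2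
    rw [Ideal.mem_comap, map_sub, (Subtype.ext b2 : π _ - π a = b)]
    exact b1
  have le : RingHom.ker π ≤ q.comap π := fun a ha => by
    rw [Ideal.mem_comap, show π a = 0 from ha]
    exact zero_mem _
  obtain ⟨c₁, c₂, w, v, s, P, E, hc, p1, p2, p3, p4, s1, s2, w1, w2, v1, v2, hE⟩ :=
    sub α (q.comap π) (RingHom.ker π) f hl.ker (ht_ker hl hS) le (Eg.res_max hl.aff _)
      (fun g a => g.2 a) fun g a ha => by
        obtain ⟨σ, -, h⟩ := dn g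
        have h1 := h a
        rw [show π a = 0 from ha, ZeroMemClass.coe_zero, map_zero] at h1
        exact Subtype.ext h1.symm
  have fx : ∀ {σ : F ≃ₐ[ℂ] F} {g}, (∀ a, σ (π a) = π (α g a)) → σ (π s) = π s := fun h => by
    rw [h, s2]
  refine ⟨π s, s1, fun σ hσ i => let ⟨_, h⟩ := up σ hσ i; fx h, fun S₁ G₁ h1 h2 => ?_⟩
  obtain ⟨F₂, _, _, ρ, ff, kρ, fr, au⟩ := exists_field P (n := N + c₂) p2
    ((td_aff hl.aff).trans (congrArg _ (by omega)))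
  replace au : ∀ g, ∃ τ : F₂ ≃ₐ[ℂ] F₂, ∀ a, τ (ρ a) = ρ (α g a) := fun g =>
    au _ (p4 g) (by simpa only [map_inv, AlgEquiv.aut_inv] using p4 g⁻¹)
  have r0 : ρ s ≠ 0 := fun e => s1 (le (p3 ((kρ s).1 e)))
  have s0 : (π s : F) ≠ 0 := fun e => s1 (le (Subtype.ext e : π s = 0))
  obtain ⟨φ, hφ⟩ := exists_map (ρ := ρ) (S.val.comp π) s0 fun a ha =>
    congrArg Subtype.val (p3 ((kρ a).1 ha) : π a = 0)
  replace hφ : ∀ (x : aw ρ s) (a : S') (k : ℕ), (x : F₂) * ρ s ^ k = ρ a →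
    φ x * (π s : F) ^ k = π a := hφ
  have φ0 : ∀ a, φ (toAw ρ s a) = π a := fun a => by
    simpa using hφ (toAw ρ s a) a 0 (by rw [pow_zero]; exact mul_one _)
  have φ1 : ∀ x, φ x ∈ S₁ := fun x =>
    let ⟨a, k, e⟩ := x.2; (h1 _).2 ⟨k, hφ x a k e ▸ (π a).2⟩
  have ov : ∀ {g} {τ : F₂ ≃ₐ[ℂ] F₂} {σ : F ≃ₐ[ℂ] F}, (∀ a, τ (ρ a) = ρ (α g a)) →
      (∀ a, σ (π a) = π (α g a)) → ∀ a b : aw ρ s, τ a = b → σ (φ a) = φ b :=
    fun {g τ σ} t1 t2 a b e => by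
      obtain ⟨x, k, hx⟩ := a.2
      have e1 := congrArg τ hx
      rw [map_mul, map_pow, t1, t1, s2, e] at e1
      have e2 := congrArg σ (hφ a x k hx)
      rw [map_mul, map_pow, fx t2, t2, ← hφ b _ k e1] at e2
      exact mul_right_cancel₀ (pow_ne_zero k s0) e2
  have fg := fg_aw r0
  have := (Subalgebra.fg_iff_finiteType _).1 fg
  have sm := fs (toAw ρ s) s w E hE (unit_aw r0) sur_aw (fun j => Subtype.ext ((kρ _).2 (w1 j)))
    fun a ha => w2 a ((kρ a).1 (congrArg Subtype.val ha))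
  refine ⟨c₂, F₂, inferInstance, inferInstance, Qu.im ρ α.range, aw ρ s, φ.codRestrict S₁ φ1,
    fun i => toAw ρ s (v i), ⟨⟨ff, fg, fun x => ?_⟩,
      ⟨sm, Algebra.FinitePresentation.of_finiteType.1 inferInstance⟩, ?_, ?_, fun y => ?_,
      le_antisymm (fun x hx => ?_) (Ideal.span_le.2 (range_subset_iff.2 fun i => ?_)),
      fun σ hσ => ?_, ?_⟩, fun q₁ hq₁ i => ?_⟩
  · obtain ⟨a, b, e⟩ := fr x
    exact ⟨toAw ρ s a, toAw ρ s b, e⟩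
  · choose τ hτ using au
    refine Finite.of_surjective
      (fun g => (⟨τ g, α g, ⟨g, rfl⟩, hτ g⟩ : Qu.im ρ α.range)) ?_
    rintro ⟨σ, _, ⟨g, rfl⟩, b⟩
    refine ⟨g, Subtype.ext (AlgEquiv.ext fun x => ?_)⟩
    obtain ⟨a, a', rfl⟩ := fr x
    change τ g _ = σ _
    rw [map_div₀, map_div₀, hτ, hτ, b, b]
  · rintro τ ⟨_, ⟨g, rfl⟩, b⟩ x ⟨a, k, e⟩
    have e1 := congrArg τ e
    rw [map_mul, map_pow, b, b, s2] at e1
    exact ⟨_, k, e1⟩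
  · obtain ⟨k, e⟩ := (h1 y).1 y.2
    obtain ⟨a, ha⟩ := hl.sur ⟨_, e⟩
    have e1 : ρ a / ρ s ^ k * ρ s ^ k = ρ a := div_mul_cancel₀ _ (pow_ne_zero k r0)
    refine ⟨⟨_, a, k, e1⟩, Subtype.ext (mul_right_cancel₀ (pow_ne_zero k s0) ?_)⟩
    exact (hφ ⟨_, a, k, e1⟩ a k e1).trans (congrArg Subtype.val ha)
  · obtain ⟨a, k, e⟩ := sur_aw x
    have e1 := hφ x a k (congrArg Subtype.val e)
    rw [show φ x = 0 from congrArg Subtype.val hx, zero_mul] at e1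
    have e2 := Ideal.mem_map_of_mem (toAw ρ s) (v2 a (Subtype.ext e1.symm))
    have e3 : P.map (toAw ρ s) = ⊥ :=
      le_bot_iff.1 (Ideal.map_le_iff_le_comap.2 fun b hb => Subtype.ext ((kρ b).2 hb))
    rw [Ideal.map_sup, e3, bot_sup_eq, Ideal.map_span, ← range_comp, map_mul, ← e, mul_comm,
      mul_assoc, ← pow_succ] at e2
    exact (Ideal.mul_unit_mem_iff_mem _ ((unit_aw r0).pow _)).1 e2
  · exact Subtype.ext ((φ0 _).trans (congrArg Subtype.val ((v1 i).1 : π _ = 0)))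
  · obtain ⟨g, hg⟩ := up σ ((h2 σ).1 hσ).1 ((h2 σ).1 hσ).2
    obtain ⟨τ, hτ⟩ := au g
    exact ⟨τ, ⟨_, ⟨g, rfl⟩, hτ⟩, ov hτ hg⟩
  · rintro τ ⟨_, ⟨g, rfl⟩, b⟩
    obtain ⟨σ, hσ, hg⟩ := dn g
    refine ⟨σ, (h2 σ).2 ⟨hσ, fun a => ?_⟩, ov b hg⟩
    obtain ⟨a, rfl⟩ := hl.sur a
    exact ⟨π (α g a - a), g.2 a, by rw [hg, map_sub, AddSubgroupClass.coe_sub]⟩
  · refine Ideal.le_comap_pow (toAw ρ s) 2 (Ideal.pow_right_mono (fun a ha => ?_) 2 (v1 i).2)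
    exact hq₁ (π a) _ ha (φ0 a)

end Vale.Agent.P283R.Em
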