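import Vale.Agent.P283R.Ty.Sm2
import Vale.Agent.P283R.H.Pri

/-!
# P283R, block EM: an invariant smooth subvariety of minimal dimension (the algebra)
-/

set_option linter.all false

open Set Algebra

noncomputable section

namespace Vale.Agent.P283R.Em

variable {R T : Type} [CommRing R] [CommRing T] [Algebra ℂ R] [Algebra ℂ T]

/-- the quotient by functions with dual derivations is formally smooth -/
theorem fs {ι : Type} [Fintype ι] [DecidableEq ι] [FormallySmooth ℂ R] (ρ : R →ₐ[ℂ] T) (s : R)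
    (w : ι → R) (E : ι → Derivation ℂ R R) (hE : ∀ i j, E i (w j) = if i = j then s else 0)
    (hs : IsUnit (ρ s)) (sur : ∀ t, ∃ a, ∃ k : ℕ, t * ρ s ^ k = ρ a) (hw : ∀ j, ρ (w j) = 0)
    (ker : ∀ a, ρ a = 0 → s * a ∈ Ideal.span (range w)) : FormallySmooth ℂ T := by
  refine .of_comp_surjective fun B _ _ I hI f => ?_
  obtain ⟨g, hg⟩ := FormallySmooth.comp_surjective ℂ R I hI (f.comp ρ)
  have hg' : ∀ a, Ideal.Quotient.mk I (g a) = f (ρ a) := fun a => congr($hg a)
  have un : ∀ b, IsUnit (Ideal.Quotient.mk I b) → IsUnit b := fun b =>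
    (IsNilpotent.isUnit_quotient_mk_iff ⟨2, hI⟩).1
  obtain ⟨u, hu⟩ := (un (g s) (hg' s ▸ hs.map f)).exists_left_inv
  have hε : ∀ j, g (w j) ∈ I := fun j => by
    rw [← Ideal.Quotient.eq_zero_iff_mem, hg', hw, map_zero]
  have sq : ∀ x ∈ I, ∀ y ∈ I, x * y = 0 := fun x hx y hy => by
    have := Ideal.mul_mem_mul hx hy
    rwa [← pow_two, hI] at this
  let e : R → B := fun a => ∑ j, u * g (E j a) * g (w j)
  have he : ∀ a, e a ∈ I := fun a => I.sum_mem fun j _ => I.mul_mem_left _ (hε j)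
  let g' : R →ₐ[ℂ] B :=
    { toFun := fun a => g a - e a
      map_one' := by simp [e]
      map_mul' := fun a b => by
        have : e (a * b) = g a * e b + g b * e a := by
          simp only [e, Derivation.leibniz, smul_eq_mul, map_add, map_mul, Finset.mul_sum,
            ← Finset.sum_add_distrib]
          exact Finset.sum_congr rfl fun j _ => by ring
        rw [this, map_mul]
        linear_combination (-1 : B) * sq _ (he a) _ (he b)
      map_zero' := by simp [e]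
      map_add' := fun a b => by
        simp only [e, map_add, mul_add, add_mul, Finset.sum_add_distrib]
        ring
      commutes' := fun r => by simp [e] }
  have k1 : ∀ a, Ideal.Quotient.mk I (g' a) = f (ρ a) := fun a => by
    change Ideal.Quotient.mk I (g a - e a) = _
    rw [map_sub, hg', Ideal.Quotient.eq_zero_iff_mem.2 (he a), sub_zero]
  have k2 : ∀ j, g' (w j) = 0 := fun j => by
    change g (w j) - e (w j) = 0
    simp only [e, hE]
    rw [Finset.sum_eq_single j (fun i _ hi => by simp [hi]) (by simp), if_pos rfl, hu, one_mul,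
      sub_self]
  have k3 : IsUnit (g' s) := un _ (k1 s ▸ hs.map f)
  have k4 : ∀ a, ρ a = 0 → g' a = 0 := fun a ha => by
    have : Ideal.span (range w) ≤ RingHom.ker g' := Ideal.span_le.2 (range_subset_iff.2 k2)
    have h1 : g' (s * a) = 0 := this (ker a ha)
    rw [map_mul] at h1
    exact k3.mul_right_eq_zero.1 h1
  let L := Localization.Away s
  have pw : ∀ {C : Type} [CommRing C] [Algebra ℂ C] (φ : R →ₐ[ℂ] C), IsUnit (φ s) →
      ∀ y : Submonoid.powers s, IsUnit (φ y) := fun φ h y => by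
    obtain ⟨_, n, rfl⟩ := y
    exact map_pow φ s n ▸ h.pow n
  let l : L →ₐ[ℂ] T := IsLocalization.liftAlgHom (M := .powers s) (pw ρ hs)
  let μ : L →ₐ[ℂ] B := IsLocalization.liftAlgHom (M := .powers s) (pw g' k3)
  have l1 : ∀ a, l (algebraMap R L a) = ρ a := fun a => IsLocalization.lift_eq _ a
  have m1 : ∀ a, μ (algebraMap R L a) = g' a := fun a => IsLocalization.lift_eq _ a
  have l2 : Function.Surjective l := fun t => by
    obtain ⟨a, k, h⟩ := sur t
    let y : Submonoid.powers s := ⟨s ^ k, k, rfl⟩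
    refine ⟨IsLocalization.mk' L a y, (hs.pow k).mul_right_cancel ?_⟩
    rw [h, ← l1, ← l1, ← map_pow, ← map_mul, ← map_pow]
    exact congrArg l (IsLocalization.mk'_spec L a y)
  have l3 : RingHom.ker l.toRingHom ≤ RingHom.ker μ.toRingHom := fun x hx => by
    obtain ⟨a, y, rfl⟩ := IsLocalization.exists_mk'_eq (.powers s) x
    have h1 := IsLocalization.mk'_spec L a y
    have h2 := congrArg l h1
    have h3 := congrArg μ h1
    rw [map_mul, show l _ = 0 from hx, zero_mul, l1] at h2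
    rw [map_mul, m1, m1, k4 a h2.symm] at h3
    exact (pw g' k3 y).mul_left_eq_zero.1 h3
  refine ⟨AlgHom.liftOfSurjective l l2 μ l3, AlgHom.ext fun t => ?_⟩
  obtain ⟨x, rfl⟩ := l2 t
  rw [AlgHom.comp_apply, AlgHom.liftOfSurjective_apply]
  have : ((Ideal.Quotient.mkₐ ℂ I).comp μ).toRingHom = (f.comp l).toRingHom :=
    IsLocalization.ringHom_ext (.powers s) (RingHom.ext fun a =>
      (congrArg (Ideal.Quotient.mk I) (m1 a)).trans ((k1 a).trans (congrArg f (l1 a).symm)))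
  exact congr($this x)

/-- an equivariant projection -/
theorem prj {Γ : Type} [Group Γ] [Finite Γ] (α : Γ →* (R ≃ₐ[ℂ] R)) (N : Submodule ℂ R)
    (hN : ∀ g, ∀ a ∈ N, α g a ∈ N) : ∃ π : R →ₗ[ℂ] R, (∀ a, π a ∈ N) ∧ (∀ a ∈ N, π a = a) ∧
      ∀ g a, π (α g a) = α g (π a) := by
  classical
  have := Fintype.ofFinite Γ
  obtain ⟨p, hp⟩ := N.subtype.exists_leftInverse_of_injective N.ker_subtype
  have c0 : (Fintype.card Γ : ℂ) ≠ 0 := Nat.cast_ne_zero.2 Fintype.card_ne_zero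
  have iv : ∀ g a, α g⁻¹ (α g a) = a := fun g a => by
    rw [← AlgEquiv.mul_apply, ← map_mul, inv_mul_cancel, map_one, AlgEquiv.one_apply]
  refine ⟨(Fintype.card Γ : ℂ)⁻¹ • ∑ g, (α g⁻¹).toLinearMap ∘ₗ N.subtype ∘ₗ p ∘ₗ (α g).toLinearMap,
    fun a => ?_, fun a ha => ?_, fun h a => ?_⟩
  · rw [LinearMap.smul_apply, LinearMap.sum_apply]
    exact N.smul_mem _ (N.sum_mem fun g _ => hN _ _ (p _).2)
  · have : ∀ g, ((α g⁻¹).toLinearMap ∘ₗ N.subtype ∘ₗ p ∘ₗ (α g).toLinearMap) a = a := fun g => by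
      have h1 : p (α g a) = ⟨_, hN g a ha⟩ := congr($hp ⟨_, hN g a ha⟩)
      change α g⁻¹ (p (α g a) : R) = a
      rw [h1]
      exact iv g a
    rw [LinearMap.smul_apply, LinearMap.sum_apply, Finset.sum_congr rfl fun g _ => this g,
      Finset.sum_const, Finset.card_univ, ← Nat.cast_smul_eq_nsmul ℂ, smul_smul,
      inv_mul_cancel₀ c0, one_smul]
  · rw [LinearMap.smul_apply, LinearMap.smul_apply, LinearMap.sum_apply, LinearMap.sum_apply,
      map_smul, map_sum]
    refine congrArg _ (Fintype.sum_equiv (Equiv.mulRight h) _ _ fun g => ?_)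
    change α g⁻¹ (p (α g (α h a)) : R) = α h (α (g * h)⁻¹ (p (α (g * h) a) : R))
    rw [map_mul α g, AlgEquiv.mul_apply, ← AlgEquiv.mul_apply (α h), ← map_mul, mul_inv_rev,
      mul_inv_cancel_left]

/-- adapted generators -/
theorem gens {Γ : Type} [Group Γ] [Finite Γ] (α : Γ →* (R ≃ₐ[ℂ] R)) (m I : Ideal R) {c : ℕ}
    (f : Fin c → R) (hf : I = Ideal.span (range f)) (hI : I ≤ m)
    (res : ∀ a, ∃ z : ℂ, a - algebraMap ℂ R z ∈ m) (sm : ∀ g, ∀ a ∈ m, α g a ∈ m)
    (sI : ∀ g, ∀ a ∈ I, α g a ∈ I) :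
    ∃ (c₁ c₂ : ℕ) (w : Fin c₁ → R) (v : Fin c₂ → R), c₁ + c₂ = c ∧ (∀ j, w j ∈ I) ∧
      (∀ j, v j ∈ I ∧ v j ∈ m ^ 2) ∧ (∀ z : Fin c₁ → ℂ, ∑ j, z j • w j ∈ m ^ 2 → z = 0) ∧
      (∀ g j, α g (w j) ∈ Ideal.span (range w)) ∧
      I ≤ Ideal.span (range (Sum.elim w v)) ⊔ m * I := by
  classical
  have s2 : ∀ g, ∀ a ∈ m ^ 2, α g a ∈ m ^ 2 := fun g a ha => by
    rw [pow_two] at ha ⊢
    refine Submodule.mul_induction_on ha (fun x hx y hy => ?_) fun x y hx hy => ?_
    · rw [map_mul]; exact Ideal.mul_mem_mul (sm g x hx) (sm g y hy)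
    · rw [map_add]; exact add_mem hx hy
  obtain ⟨π, p1, p2, p3⟩ : ∃ π : R →ₗ[ℂ] R, (∀ a, π a ∈ I ∧ π a ∈ m ^ 2) ∧
      (∀ a, a ∈ I ∧ a ∈ m ^ 2 → π a = a) ∧ ∀ g a, π (α g a) = α g (π a) :=
    prj α ((I ⊓ m ^ 2 : Ideal R).restrictScalars ℂ) fun g a ha => ⟨sI g a ha.1, s2 g a ha.2⟩
  have fI : ∀ i, f i ∈ I := fun i => by rw [hf]; exact Ideal.subset_span ⟨i, rfl⟩
  let l : (Fin c → ℂ) →ₗ[ℂ] R := Fintype.linearCombination ℂ f
  have l0 : ∀ z, l z = ∑ i, z i • f i := fun z => Fintype.linearCombination_apply ℂ f z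
  have lI : ∀ z, l z ∈ I := fun z => by
    rw [l0]
    exact I.sum_mem fun i _ => Submodule.smul_of_tower_mem _ _ (fI i)
  let ψ : (Fin c → ℂ) →ₗ[ℂ] R := (LinearMap.id - π) ∘ₗ l
  have ψ1 : ∀ z, ψ z = l z - π (l z) := fun _ => rfl
  have dec : ∀ a ∈ I, ∃ z, a - l z ∈ m * I := fun a ha => by
    rw [hf] at ha
    obtain ⟨b, rfl⟩ := Ideal.mem_span_range_iff_exists_fun.1 ha
    choose z hz using fun i => res (b i)
    refine ⟨z, ?_⟩
    rw [l0, ← Finset.sum_sub_distrib]
    refine Submodule.sum_mem _ fun i _ => ?_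
    rw [Algebra.smul_def (z i), ← sub_mul]
    exact Ideal.mul_mem_mul (hz i) (fI i)
  have mI : ∀ a ∈ m * I, π a = a := fun a ha => by
    have h1 : m * I ≤ I := Ideal.mul_le.2 fun x _ y hy => I.mul_mem_left x hy
    have h2 : m * I ≤ m ^ 2 := by
      rw [pow_two]
      exact Ideal.mul_le.2 fun x hx y hy => Ideal.mul_mem_mul hx (hI hy)
    exact p2 a ⟨h1 ha, h2 ha⟩
  have th : ∀ a z, a - l z ∈ m * I → ψ z = a - π a := fun a z h => by
    have := mI _ h
    rw [map_sub] at this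
    rw [ψ1]
    linear_combination this
  clear_value ψ l
  obtain ⟨c₁, c₂, hc, ⟨b⟩, ⟨u⟩⟩ : ∃ c₁ c₂, c₁ + c₂ = c ∧
      Nonempty (Module.Basis (Fin c₁) ℂ (LinearMap.range ψ)) ∧
      Nonempty (Module.Basis (Fin c₂) ℂ (LinearMap.ker ψ)) :=
    ⟨_, _, by rw [LinearMap.finrank_range_add_finrank_ker, Module.finrank_fin_fun],
      ⟨Module.finBasis ℂ _⟩, ⟨Module.finBasis ℂ _⟩⟩
  have wI : ∀ x : LinearMap.range ψ, (x : R) ∈ I ∧ π x = 0 := by
    rintro ⟨_, z, rfl⟩
    change ψ z ∈ I ∧ π (ψ z) = 0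
    rw [ψ1, map_sub, p2 _ (p1 _), sub_self]
    exact ⟨sub_mem (lI z) (p1 _).1, rfl⟩
  have sp : ∀ x : LinearMap.range ψ, (x : R) ∈ Ideal.span (range fun j => (b j : R)) := fun x => by
    rw [← b.sum_repr x, Submodule.coe_sum]
    exact Submodule.sum_mem _ fun j _ =>
      Submodule.smul_of_tower_mem _ _ (Ideal.subset_span ⟨j, rfl⟩)
  refine ⟨_, _, fun j => b j, fun j => l (u j), hc, fun j => (wI _).1, fun j => ⟨lI _, ?_⟩,
    fun z hz => ?_, fun g j => ?_, fun a ha => ?_⟩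
  · have h1 : l (u j) - π (l (u j)) = 0 := (ψ1 _).symm.trans (u j).2
    have h2 := (p1 (l (u j))).2
    rwa [← sub_eq_zero.1 h1] at h2
  · have e : ((∑ j, z j • b j : LinearMap.range ψ) : R) = ∑ j, z j • (b j : R) := by simp
    rw [← e] at hz
    have h1 := p2 _ ⟨(wI _).1, hz⟩
    rw [(wI _).2] at h1
    exact funext (Fintype.linearIndependent_iff.1 b.linearIndependent z (Subtype.ext h1.symm))
  · obtain ⟨z, hz⟩ := dec _ (sI g _ (wI (b j)).1)
    have h1 := th _ z hz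
    rw [p3, (wI _).2, map_zero, sub_zero] at h1
    exact sp ⟨_, z, h1⟩
  · obtain ⟨z, hz⟩ := dec a ha
    obtain ⟨y, hy⟩ := dec _ (p1 a).1
    have h1 := th _ y hy
    rw [p2 _ (p1 a), sub_self] at h1
    have h2 : l y ∈ Ideal.span (range fun j => l (u j)) := by
      have e := congrArg (fun x : LinearMap.ker ψ => l x) (u.sum_repr ⟨y, h1⟩)
      simp only [Submodule.coe_sum, Submodule.coe_smul, map_sum, map_smul] at e
      rw [← e]
      exact Submodule.sum_mem _ fun j _ =>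
        Submodule.smul_of_tower_mem _ _ (Ideal.subset_span ⟨j, rfl⟩)
    have e : a = ψ z + l y + (π a - l y) := by rw [th a z hz]; ring
    rw [e, Set.Sum.elim_range, Ideal.span_union]
    exact Submodule.add_mem_sup (Submodule.add_mem_sup (sp ⟨_, z, rfl⟩) h2) hy

/-- clearing the denominators of derivations -/
theorem den {O ι : Type} [Finite ι] [CommRing O] [Algebra ℂ O] [Algebra R O] [IsScalarTower ℂ R O]
    [FiniteType ℂ R] (M : Submonoid R) [IsLocalization M O]
    (inj : Function.Injective (algebraMap R O)) (D : ι → Derivation ℂ O O) :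
    ∃ s ∈ M, ∃ E : ι → Derivation ℂ R R, ∀ i a,
      algebraMap R O (E i a) = algebraMap R O s * D i (algebraMap R O a) := by
  classical
  obtain ⟨t, ht⟩ := (FiniteType.out : (⊤ : Subalgebra ℂ R).FG)
  obtain ⟨s, hs⟩ := IsLocalization.exist_integer_multiples_of_finite M
    fun x : ι × t => D x.1 (algebraMap R O x.2)
  have k : ∀ i a, ∃ b, algebraMap R O b = algebraMap R O s * D i (algebraMap R O a) := fun i a => by
    have ha : a ∈ Algebra.adjoin ℂ (t : Set R) := ht ▸ mem_top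
    induction ha using Algebra.adjoin_induction with
    | mem x hx =>
      obtain ⟨b, hb⟩ := hs (i, ⟨x, hx⟩)
      exact ⟨b, hb.trans (Algebra.smul_def _ _)⟩
    | algebraMap z => exact ⟨0, by simp [← IsScalarTower.algebraMap_apply]⟩
    | add x y _ _ hx hy =>
      obtain ⟨b, hb⟩ := hx
      obtain ⟨b', hb'⟩ := hy
      exact ⟨b + b', by rw [map_add, map_add, map_add, hb, hb', mul_add]⟩
    | mul x y _ _ hx hy =>
      obtain ⟨b, hb⟩ := hx
      obtain ⟨b', hb'⟩ := hy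
      exact ⟨x * b' + y * b, by
        simp only [map_add, map_mul, hb, hb', Derivation.leibniz, smul_eq_mul]; ring⟩
  choose E hE using k
  refine ⟨s, s.2, fun i => Derivation.mk'
    { toFun := E i, map_add' := fun a b => inj ?_, map_smul' := fun z a => inj ?_ }
      fun a b => inj ?_, hE⟩
  · rw [map_add, hE, hE, hE, map_add, map_add, mul_add]
  · simp only [Algebra.smul_def, RingHom.id_apply, map_mul, hE, Derivation.leibniz, smul_eq_mul,
      ← IsScalarTower.algebraMap_apply, Derivation.map_algebraMap]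
    ring
  · simp only [LinearMap.coe_mk, AddHom.coe_mk, smul_eq_mul, map_add, map_mul, hE,
      Derivation.leibniz]
    ring

theorem nak {m P J : Ideal R} (hm : m ≠ ⊤) (hP : P.FG) (h : P ≤ J ⊔ m * P) :
    ∃ r ∉ m, ∀ a ∈ P, r * a ∈ J := by
  obtain ⟨r, h1, h2⟩ := Submodule.exists_sub_one_mem_and_smul_le_of_fg_of_le_sup hP le_rfl h
  exact ⟨r, fun k => (Ideal.ne_top_iff_one m).1 hm (by simpa using sub_mem k h1),
    fun a ha => h2 (Submodule.smul_mem_pointwise_smul a r P ha)⟩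

/-- the invariant smooth subvariety -/
theorem sub [IsDomain R] [Smooth ℂ R] {Γ : Type} [Group Γ] [Finite Γ] (α : Γ →* (R ≃ₐ[ℂ] R))
    (m I : Ideal R) [hm : m.IsMaximal] [hp : I.IsPrime] {c : ℕ} (f : Fin c → R)
    (hf : I = Ideal.span (range f)) (ht : I.height = c) (hI : I ≤ m)
    (res : ∀ a, ∃ z : ℂ, a - algebraMap ℂ R z ∈ m) (inr : ∀ g a, α g a - a ∈ m)
    (sI : ∀ g, ∀ a ∈ I, α g a ∈ I) :
    ∃ (c₁ c₂ : ℕ) (w : Fin c₁ → R) (v : Fin c₂ → R) (s : R) (P : Ideal R)
      (E : Fin c₁ → Derivation ℂ R R), c₁ + c₂ = c ∧ P.IsPrime ∧ P.height = c₁ ∧ P ≤ I ∧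
      (∀ g, ∀ a ∈ P, α g a ∈ P) ∧ s ∉ m ∧ (∀ g, α g s = s) ∧ (∀ j, w j ∈ P) ∧
      (∀ a ∈ P, s * a ∈ Ideal.span (range w)) ∧ (∀ j, v j ∈ I ∧ v j ∈ m ^ 2) ∧
      (∀ a ∈ I, s * a ∈ P ⊔ Ideal.span (range v)) ∧
      ∀ i j, E i (w j) = if i = j then s else 0 := by
  classical
  have := Fintype.ofFinite Γ
  have := FiniteType.isNoetherianRing ℂ R
  have sm : ∀ g, ∀ a ∈ m, α g a ∈ m := fun g a ha => by simpa using add_mem (inr g a) ha
  have sm' : ∀ g a, α g a ∈ m → a ∈ m := fun g a ha => by simpa using sub_mem ha (inr g a)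
  obtain ⟨c₁, c₂, w, v, hc, w1, v1, w2, w3, g1⟩ := gens α m I f hf hI res sm sI
  obtain ⟨s₂, a2, b2⟩ := nak hm.ne_top (IsNoetherian.noetherian I) g1
  let O := Localization.AtPrime m
  have inj : Function.Injective (algebraMap R O) :=
    IsLocalization.injective O m.primeCompl_le_nonZeroDivisors
  have hd : Disjoint (m.primeCompl : Set R) I := Set.disjoint_left.2 fun a ha h => ha (hI h)
  have e2 : I.map (algebraMap R O) = Ideal.span (range (algebraMap R O ∘ Sum.elim w v)) := by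
    rw [range_comp, ← Ideal.map_span]
    refine le_antisymm (Ideal.map_le_iff_le_comap.2 fun a ha => ?_) (Ideal.map_mono
      (Ideal.span_le.2 (range_subset_iff.2 (Sum.rec w1 fun j => (v1 j).1))))
    exact (IsLocalization.algebraMap_mem_map_algebraMap_iff m.primeCompl O _ a).2
      ⟨s₂, a2, b2 a ha⟩
  have hp' : (Ideal.span (range (algebraMap R O ∘ Sum.elim w v))).IsPrime :=
    e2 ▸ IsLocalization.isPrime_of_isPrime_disjoint m.primeCompl O _ hp hd
  have hh' : (Fintype.card (Fin c₁ ⊕ Fin c₂) : ℕ∞) ≤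
      (Ideal.span (range (algebraMap R O ∘ Sum.elim w v))).height := by
    rw [← e2, IsLocalization.height_map_of_disjoint m.primeCompl _ hd, ht]
    simp [hc]
  let U : Finset (Fin c₁ ⊕ Fin c₂) := Finset.univ.map Function.Embedding.inl
  have e1 : (Ideal.span (range w)).map (algebraMap R O) =
      Ideal.span ((algebraMap R O ∘ Sum.elim w v) '' U) := by
    rw [Ideal.map_span, ← range_comp]
    refine congrArg _ (Set.ext fun x => ⟨?_, ?_⟩)
    · rintro ⟨j, rfl⟩
      exact ⟨.inl j, by simp [U], rfl⟩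
    · rintro ⟨j, hj, rfl⟩
      obtain ⟨j, -, rfl⟩ := Finset.mem_map.1 (Finset.mem_coe.1 hj)
      exact ⟨j, rfl⟩
  have q1 := H.prime_loc hp' hh' U
  have q2 := H.height_loc hp' hh' U
  have p1 : (H.sat m (Ideal.span (range w))).IsPrime := by
    rw [H.sat, e1]
    exact Ideal.comap_isPrime _ _
  have p2 : (H.sat m (Ideal.span (range w))).height = c₁ := by
    rw [H.sat, e1]
    refine (IsLocalization.height_under m.primeCompl _).trans (q2.trans ?_)
    simp [U]
  obtain ⟨s₁, a1, b1⟩ := nak (P := H.sat m (Ideal.span (range w))) (J := Ideal.span (range w))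
    hm.ne_top (IsNoetherian.noetherian _) fun a ha => by
      obtain ⟨u, hu, h1⟩ := H.mem_sat.1 ha
      obtain ⟨x, y, hy, e⟩ := hm.exists_inv hu
      have e' : a = x * (u * a) + y * a := by rw [← mul_assoc, ← add_mul, e, one_mul]
      rw [e']
      exact Submodule.add_mem_sup (Ideal.mul_mem_left _ _ h1) (Ideal.mul_mem_mul hy ha)
  have := Ty.Sm.smooth_at (k := ℂ) (O := O) m
  obtain ⟨D, hD⟩ := Ty.Sm.exists_der (Ty.Sm.res_at (O := O) m res)
    (x := fun j => algebraMap R O (w j))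
    (fun j => (IsLocalization.AtPrime.to_map_mem_maximal_iff O m _).2 (hI (w1 j))) fun z hz => by
      refine w2 z ?_
      rw [← IsLocalization.AtPrime.under_maximalIdeal_pow m O 2, Ideal.mem_under]
      simpa only [map_sum, Algebra.smul_def, map_mul, ← IsScalarTower.algebraMap_apply] using hz
  obtain ⟨s₀, a0, E, hE⟩ := den m.primeCompl inj D
  have a3 : s₀ * (s₁ * s₂) ∈ m.primeCompl := mul_mem a0 (mul_mem a1 a2)
  obtain ⟨t, e⟩ : s₀ * (s₁ * s₂) ∣ ∏ g, α g (s₀ * (s₁ * s₂)) := by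
    simpa using Finset.dvd_prod_of_mem (fun g => α g (s₀ * (s₁ * s₂))) (Finset.mem_univ 1)
  have st : ∀ g, ∀ a ∈ Ideal.span (range w), α g a ∈ Ideal.span (range w) := fun g =>
    (Ideal.span_le.2 (range_subset_iff.2 (w3 g)) : _ ≤ (Ideal.span (range w)).comap (α g))
  refine ⟨c₁, c₂, w, v, ∏ g, α g (s₀ * (s₁ * s₂)), _, fun i => (s₁ * s₂ * t) • E i, hc, p1, p2,
    H.sat_le hp hI (Ideal.span_le.2 (range_subset_iff.2 w1)), fun g a ha => ?_,
    (prod_mem fun g _ k => a3 (sm' g _ k) : _ ∈ m.primeCompl), fun g => ?_,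
    fun j => H.le_sat _ _ (Ideal.subset_span ⟨j, rfl⟩), fun a ha => ?_, v1, fun a ha => ?_,
    fun i j => ?_⟩
  · obtain ⟨u, hu, h1⟩ := H.mem_sat.1 ha
    exact H.mem_sat.2 ⟨α g u, fun k => hu (sm' g u k), map_mul (α g) u a ▸ st g _ h1⟩
  · rw [map_prod]
    exact Fintype.prod_equiv (Equiv.mulLeft g) _ _ fun x => by
      rw [Equiv.coe_mulLeft, map_mul α, AlgEquiv.mul_apply]
  · rw [e, show s₀ * (s₁ * s₂) * t * a = s₀ * s₂ * t * (s₁ * a) by ring]
    exact Ideal.mul_mem_left _ _ (b1 a ha)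
  · rw [e, show s₀ * (s₁ * s₂) * t * a = s₀ * s₁ * t * (s₂ * a) by ring]
    refine Ideal.mul_mem_left _ _ ?_
    have := b2 a ha
    rw [Set.Sum.elim_range, Ideal.span_union] at this
    exact (sup_le_sup_right (H.le_sat m _) _ : _ ⊔ Ideal.span (range v) ≤ _) this
  · have : E i (w j) = if i = j then s₀ else 0 := inj (by
      rw [hE, hD]
      split_ifs <;> simp)
    rw [Derivation.smul_apply, this, e, smul_eq_mul]
    split_ifs <;> ring

end Vale.Agent.P283R.Em
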